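import Vale.Agent.N243L.Main
import Vale.Agent.N243L.Arch

namespace Vale.Agent.Results.P243.A0Sweep

open Vale.Agent.N243 Vale.Agent.N243L

/-- `V` is Euclidean three-space. -/
theorem result {V : Type} [NormedAddCommGroup V] [InnerProductSpace ℝ V] [FiniteDimensional ℝ V]
    [MeasurableSpace V] [BorelSpace V] (hV : Module.finrank ℝ V = 3) :
    -- (1) a new upper bound
    r3 V < 0.39811 ∧ bound (5 / 12) < 0.39811 ∧
    -- every tetrahedron `T` with vertices `v 0, v 1, v 2, v 3`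
    ∀ (v : Fin 4 → V) (T : Set V), IsTet v T →
      -- (2) has coverings of relative area close to `bound t`
      (∀ t ∈ Set.Ioo (0 : ℝ) 1, ∀ ε > 0, ∃ (m : ℕ) (u : Fin m → V) (B : ∀ i, Base (u i)),
        Covers T u B ∧ (∀ i, 0 < shadow T (u i)) ∧
          ∑ i, area (B i) / shadow T (u i) ≤ bound t + ε) ∧
      -- (3) needs total area `4 r ^ 2` if it contains a ball of radius `r`
      ∀ (m : ℕ) (u : Fin m → V) (B : ∀ i, Base (u i)), Covers T u B →
        (∀ (c : V) (r : ℝ), 0 ≤ r → Metric.closedBall c r ⊆ T → 4 * r ^ 2 ≤ ∑ i, area (B i)) ∧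
        ∀ a : ℝ, (∀ j k, j ≠ k → ‖v j - v k‖ = a) → √2 / 3 ≤ (∑ i, area (B i)) / Amin T := by
  refine ⟨(r3_le_bound hV (by norm_num)).trans_lt bound_lt, bound_lt, fun v T h =>
    ⟨fun t ht ε hε => ?_, fun m u B hc => ⟨fun c r hr hb => arch hV h hr hb hc, fun a ha => ?_⟩⟩⟩
  · obtain ⟨m, u, B, h1, h2⟩ := tet_up' hV h ht hε
    obtain ⟨h3, h4⟩ := wellDef' hV (tet_body' hV h)
    exact ⟨m, u, B, h1, fun i => h4.trans_le (h3.2 ⟨u i, (h1.1 i).1, rfl⟩), h2⟩
  · rw [le_div_iff₀ (wellDef' hV (tet_body' hV h)).2]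
    exact arch_regular ha hV h hc

end Vale.Agent.Results.P243.A0Sweep
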