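import Vale.Agent.N243.Gen

namespace Vale.Agent.Results.P243.A0Tetrahedra

open Vale.Agent.N243

/-- `V` is Euclidean three-space, `T` any tetrahedron with vertices `v 0, v 1, v 2, v 3`, covered by
the cylinders `B i + ℝ (u i)`. -/
theorem result {V : Type} [NormedAddCommGroup V] [InnerProductSpace ℝ V] [FiniteDimensional ℝ V]
    [MeasurableSpace V] [BorelSpace V] (hV : Module.finrank ℝ V = 3)
    (v : Fin 4 → V) (T : Set V) (hT : IsTet v T)
    (m : ℕ) (u : Fin m → V) (B : ∀ i, Base (u i)) (hc : Covers T u B) :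
    -- (1) arbitrary axes
    (5 / 14 ≤ ∑ i, area (B i) / shadow T (u i) ∧ 5 / 14 * Amin T ≤ ∑ i, area (B i)) ∧
    -- (2) every axis parallel to one of the six edges
    (AlongEdges v u →
      1 / 2 ≤ ∑ i, area (B i) / shadow T (u i) ∧ 1 / 2 * Amin T ≤ ∑ i, area (B i)) :=
  ⟨tet_all' hV hT hc, tet_edge' hV hT hc⟩

end Vale.Agent.Results.P243.A0Tetrahedra
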